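import Mathlib

/-! # P097 / Disc [F3], part 1 (helper104): the power series of `(1 + w) ^ (1/2)`. -/

open Finset

namespace Vale.Agent.P097.H104.ELL

/-- Catalan series over `ℝ`, at `-X/4` -/
noncomputable def C1 : PowerSeries ℝ :=
  PowerSeries.rescale (-1 / 4 : ℝ) (PowerSeries.map (Nat.castRingHom ℝ) PowerSeries.catalanSeries)

theorem C1_eq : C1 ^ 2 * (PowerSeries.C (-1 / 4 : ℝ) * PowerSeries.X) + 1 = C1 := by
  have h := congrArg (fun f => PowerSeries.rescale (-1 / 4 : ℝ)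
    (PowerSeries.map (Nat.castRingHom ℝ) f)) PowerSeries.catalanSeries_sq_mul_X_add_one
  simp only [map_add, map_mul, map_pow, PowerSeries.map_X, map_one, PowerSeries.rescale_X] at h
  exact h

/-- the series of `(1 + X) ^ (1/2)` -/
noncomputable def Bs : PowerSeries ℝ := 1 + PowerSeries.C (1 / 2 : ℝ) * PowerSeries.X * C1

theorem Bs_sq : Bs ^ 2 = 1 + PowerSeries.X := by
  have h := C1_eq
  have e1 : (PowerSeries.C (-1 / 4 : ℝ)) = - (PowerSeries.C (1 / 2 : ℝ)) ^ 2 := by
    rw [← map_pow, ← map_neg]; norm_num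
  have e2 : 2 * (PowerSeries.C (1 / 2 : ℝ)) = (1 : PowerSeries ℝ) := by
    rw [show (2 : PowerSeries ℝ) = PowerSeries.C (2 : ℝ) from (map_ofNat _ 2).symm, ← map_mul]
    norm_num
  rw [e1] at h
  unfold Bs
  linear_combination (PowerSeries.X * C1) * e2 - PowerSeries.X * h

noncomputable def be (n : ℕ) : ℝ := PowerSeries.coeff n Bs

theorem be_zero : be 0 = 1 := by
  simp [be, Bs]

theorem be_succ (n : ℕ) : be (n + 1) = 1 / 2 * ((-1 / 4) ^ n * catalan n) := by
  rw [be, Bs, map_add, mul_assoc, PowerSeries.coeff_C_mul, PowerSeries.coeff_succ_X_mul, C1,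
    PowerSeries.coeff_rescale, PowerSeries.coeff_map, PowerSeries.coeff_one]
  simp

theorem catalan_le (n : ℕ) : catalan n ≤ 4 ^ n := by
  rw [catalan_eq_centralBinom_div]
  refine (Nat.div_le_self _ _).trans ?_
  rw [Nat.centralBinom_eq_two_mul_choose]
  refine (Nat.choose_le_two_pow _ _).trans ?_
  rw [pow_mul]
  norm_num

theorem be_le (n : ℕ) : |be n| ≤ 1 := by
  cases n with
  | zero => rw [be_zero]; simp
  | succ n =>
    rw [be_succ, abs_mul, abs_mul, abs_pow]
    have h1 : (catalan n : ℝ) ≤ 4 ^ n := by exact_mod_cast catalan_le n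
    have h2 : |(-1 / 4 : ℝ)| = 1 / 4 := by norm_num [abs_div]
    rw [h2, abs_of_nonneg (Nat.cast_nonneg (α := ℝ) (catalan n))]
    have h3 : (1 / 4 : ℝ) ^ n * catalan n ≤ (1 / 4) ^ n * 4 ^ n := by gcongr
    rw [← mul_pow] at h3
    norm_num at h3 ⊢
    linarith

theorem be_one : be 1 = 1 / 2 := by
  rw [be_succ]; simp

/-- `G w = (1 + w) ^ (1/2)` -/
noncomputable def G (w : ℂ) : ℂ := ∑' n, (be n : ℂ) * w ^ n

theorem summable_be {w : ℂ} (hw : ‖w‖ < 1) : Summable fun n => ‖(be n : ℂ) * w ^ n‖ := by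
  refine Summable.of_nonneg_of_le (fun _ => norm_nonneg _) (fun n => ?_)
    (summable_geometric_of_lt_one (norm_nonneg w) hw)
  rw [norm_mul, norm_pow, Complex.norm_real, Real.norm_eq_abs]
  exact mul_le_of_le_one_left (by positivity) (be_le n)

theorem G_sq {w : ℂ} (hw : ‖w‖ < 1) : G w ^ 2 = 1 + w := by
  rw [sq, G, tsum_mul_tsum_eq_tsum_sum_antidiagonal_of_summable_norm (summable_be hw)
    (summable_be hw)]
  have h1 : ∀ n, ∑ kl ∈ antidiagonal n, (be kl.1 : ℂ) * w ^ kl.1 * ((be kl.2 : ℂ) * w ^ kl.2) =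
      ((if n = 0 then 1 else 0) + (if n = 1 then 1 else 0)) * w ^ n := by
    intro n
    have h2 : PowerSeries.coeff n (Bs ^ 2) = (if n = 0 then 1 else 0) + (if n = 1 then 1 else 0) := by
      rw [Bs_sq, map_add, PowerSeries.coeff_one, PowerSeries.coeff_X]
    rw [sq, PowerSeries.coeff_mul] at h2
    have h3 : (∑ kl ∈ antidiagonal n, (be kl.1 : ℂ) * (be kl.2 : ℂ)) =
        (if n = 0 then 1 else 0) + (if n = 1 then 1 else 0) := by
      have := congrArg (fun r : ℝ => (r : ℂ)) h2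
      simp only [Complex.ofReal_sum, Complex.ofReal_mul, Complex.ofReal_add] at this
      rw [show (∑ kl ∈ antidiagonal n, (be kl.1 : ℂ) * (be kl.2 : ℂ)) = _ from this]
      split_ifs <;> simp
    rw [← h3, sum_mul]
    refine sum_congr rfl fun kl hkl => ?_
    rw [← mem_antidiagonal.1 hkl, pow_add]
    ring
  simp only [h1]
  rw [tsum_eq_sum (s := range 2)]
  · simp [sum_range_succ]
  · intro n hn
    rw [mem_range, not_lt] at hn
    rw [if_neg (by omega), if_neg (by omega)]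
    ring

theorem G_conj (w : ℂ) : (starRingEnd ℂ) (G w) = G ((starRingEnd ℂ) w) := by
  unfold G
  rw [Complex.conj_tsum]
  refine tsum_congr fun n => ?_
  rw [map_mul, map_pow, Complex.conj_ofReal]

theorem norm_one_add {w : ℂ} (hw : ‖w‖ < 1) :
    ((‖1 + w‖ : ℝ) : ℂ) = G w * G ((starRingEnd ℂ) w) := by
  rw [← G_conj, Complex.mul_conj, ← G_sq hw, norm_pow, Complex.normSq_eq_norm_sq]

theorem hasSum_norm {w : ℂ} (hw : ‖w‖ < 1) :
    HasSum (fun p : ℕ × ℕ => (be p.1 : ℂ) * w ^ p.1 * ((be p.2 : ℂ) * (starRingEnd ℂ) w ^ p.2))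
      ((‖1 + w‖ : ℝ) : ℂ) := by
  have hw' : ‖(starRingEnd ℂ) w‖ < 1 := by rwa [RCLike.norm_conj]
  have h1 := summable_mul_of_summable_norm (summable_be hw) (summable_be hw')
  have h2 := h1.hasSum
  rwa [← tsum_mul_tsum_of_summable_norm (summable_be hw) (summable_be hw'), ← G, ← G,
    ← norm_one_add hw] at h2

end Vale.Agent.P097.H104.ELL
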