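import Vale.Agent.P097.H104.ELL.Four
import Vale.Agent.P097.Disc.FDefs

/-! # P097 / Disc [F3] (helper104): ellipses near the disc with given low modes. -/

open Finset Filter
open scoped Topology

namespace Vale.Agent.P097.H104.ELL

open Vale.Agent.P097 Vale.Agent.P097.FD Vale.Agent.P097.TOP Vale.Agent.P097.H407
open Vale.Agent.P097.Reg

theorem A_cont (k : ℕ) : ContinuousOn (A k) (Set.Icc 0 (1 / 4)) := by
  refine continuousOn_tsum (u := fun j => (1 / 4 : ℝ) ^ j) (fun j => by fun_prop)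
    (summable_geometric_of_lt_one (by norm_num) (by norm_num)) fun j s hs => ?_
  rw [norm_mul, norm_mul, norm_pow, Real.norm_eq_abs, Real.norm_eq_abs, Real.norm_eq_abs,
    abs_of_nonneg hs.1]
  have h2 : |be (k + j)| * |be j| ≤ 1 := mul_le_one₀ (be_le _) (abs_nonneg _) (be_le _)
  have h3 : s ^ j ≤ (1 / 4 : ℝ) ^ j := pow_le_pow_left₀ hs.1 hs.2 j
  calc |be (k + j)| * |be j| * s ^ j ≤ 1 * s ^ j := by
        have := pow_nonneg hs.1 j
        gcongr
    _ ≤ (1 / 4) ^ j := by linarith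

theorem A_zero (k : ℕ) : A k 0 = be k := by
  rw [A, tsum_eq_single 0]
  · simp [be_zero]
  · intro j hj
    rw [zero_pow hj, mul_zero]

theorem one_le_A0 {s : ℝ} (h0 : 0 ≤ s) (h1 : s < 1) : 1 ≤ A 0 s := by
  have h := (summable_A 0 h0 h1).le_tsum 0 (fun j _ => by
    rw [zero_add]
    exact mul_nonneg (mul_self_nonneg _) (pow_nonneg h0 j))
  simpa [A, be_zero] using h

theorem abs_A_le (k : ℕ) {s : ℝ} (h0 : 0 ≤ s) (h1 : s ≤ 1 / 4) : |A k s| ≤ 2 := by
  have h2 : ∀ j, ‖be (k + j) * be j * s ^ j‖ ≤ (1 / 4 : ℝ) ^ j := by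
    intro j
    rw [norm_mul, norm_mul, norm_pow, Real.norm_eq_abs, Real.norm_eq_abs, Real.norm_eq_abs,
      abs_of_nonneg h0]
    have h2 : |be (k + j)| * |be j| ≤ 1 := mul_le_one₀ (be_le _) (abs_nonneg _) (be_le _)
    have h3 : s ^ j ≤ (1 / 4 : ℝ) ^ j := pow_le_pow_left₀ h0 h1 j
    calc |be (k + j)| * |be j| * s ^ j ≤ 1 * s ^ j := by
          have := pow_nonneg h0 j
          gcongr
      _ ≤ (1 / 4) ^ j := by linarith
  have h3 := tsum_of_norm_bounded (hasSum_geometric_of_lt_one (r := (1 / 4 : ℝ)) (by norm_num)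
    (by norm_num)) h2
  rw [Real.norm_eq_abs] at h3
  unfold A
  norm_num at h3
  linarith

/-- the parameter of the ellipse `|1 + q e^{2ix}| / A_0` -/
noncomputable def vv (q : ℂ) : Fin 5 → ℝ :=
  ![0, 0, (1 + ‖q‖ ^ 2) / A 0 (‖q‖ ^ 2) ^ 2, 2 * q.re / A 0 (‖q‖ ^ 2) ^ 2,
    -(2 * q.im) / A 0 (‖q‖ ^ 2) ^ 2]

theorem Nf_sq (q : ℂ) (x : ℝ) : Nf q x ^ 2 =
    (1 + ‖q‖ ^ 2) + 2 * q.re * Real.cos (2 * x) + -(2 * q.im) * Real.sin (2 * x) := by
  have he : Complex.exp (Complex.I * (2 * x)) =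
      (Real.cos (2 * x) : ℂ) + (Real.sin (2 * x) : ℂ) * Complex.I := by
    rw [mul_comm, show (2 : ℂ) * x = ((2 * x : ℝ) : ℂ) by push_cast; ring, Complex.exp_mul_I,
      ← Complex.ofReal_cos, ← Complex.ofReal_sin]
  rw [Nf, he, ← Complex.normSq_eq_norm_sq, ← Complex.normSq_eq_norm_sq, Complex.normSq_apply,
    Complex.normSq_apply]
  simp only [Complex.add_re, Complex.one_re, Complex.mul_re, Complex.ofReal_re, Complex.ofReal_im,
    Complex.I_re, Complex.I_im, Complex.add_im, Complex.one_im, Complex.mul_im]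
  have := Real.sin_sq_add_cos_sq (2 * x)
  linear_combination (q.re ^ 2 + q.im ^ 2) * this

theorem EF_vv {q : ℂ} (hq : ‖q‖ ≤ 1 / 2) : EF (vv q) = fun x => Nf q x / A 0 (‖q‖ ^ 2) := by
  have hs : ‖q‖ ^ 2 < 1 := by
    have := norm_nonneg q
    nlinarith
  have hA := one_le_A0 (by positivity) hs
  funext x
  unfold EF EQ vv
  simp only [Matrix.cons_val_zero, Matrix.cons_val_one, Matrix.cons_val]
  rw [zero_mul, zero_mul, zero_add, zero_add]
  have h1 : (1 + ‖q‖ ^ 2) / A 0 (‖q‖ ^ 2) ^ 2 + 2 * q.re / A 0 (‖q‖ ^ 2) ^ 2 * Real.cos (2 * x) +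
      -(2 * q.im) / A 0 (‖q‖ ^ 2) ^ 2 * Real.sin (2 * x) = (Nf q x / A 0 (‖q‖ ^ 2)) ^ 2 := by
    rw [div_pow, Nf_sq]
    ring
  rw [h1, Real.sqrt_sq]
  exact div_nonneg (norm_nonneg _) (by linarith)

theorem vv_mem {q : ℂ} (hq : ‖q‖ ≤ 1 / 2) : vv q ∈ EP := by
  have hs : ‖q‖ ^ 2 < 1 := by
    have := norm_nonneg q
    nlinarith
  have hA := one_le_A0 (by positivity) hs
  show √((2 * q.re / A 0 (‖q‖ ^ 2) ^ 2) ^ 2 + (-(2 * q.im) / A 0 (‖q‖ ^ 2) ^ 2) ^ 2) <
    (1 + ‖q‖ ^ 2) / A 0 (‖q‖ ^ 2) ^ 2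
  have h1 : (2 * q.re / A 0 (‖q‖ ^ 2) ^ 2) ^ 2 + (-(2 * q.im) / A 0 (‖q‖ ^ 2) ^ 2) ^ 2 =
      (2 * ‖q‖ / A 0 (‖q‖ ^ 2) ^ 2) ^ 2 := by
    have h2 : ‖q‖ ^ 2 = q.re ^ 2 + q.im ^ 2 := by
      rw [← Complex.normSq_eq_norm_sq, Complex.normSq_apply]; ring
    rw [div_pow, div_pow, div_pow, ← add_div]
    congr 1
    linear_combination (-4) * h2
  rw [h1, Real.sqrt_sq (by positivity)]
  have h3 : 0 < A 0 (‖q‖ ^ 2) ^ 2 := by positivity
  rw [div_lt_div_iff_of_pos_right h3]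
  nlinarith [norm_nonneg q, sq_nonneg (1 - ‖q‖)]

theorem vv_cont : ContinuousOn vv (Metric.closedBall 0 (1 / 2)) := by
  have h0 : ContinuousOn (fun q : ℂ => A 0 (‖q‖ ^ 2)) (Metric.closedBall 0 (1 / 2)) := by
    refine (A_cont 0).comp (by fun_prop) fun q hq => ?_
    have h1 : ‖q‖ ≤ 1 / 2 := by simpa using hq
    have := norm_nonneg q
    exact ⟨by positivity, by nlinarith⟩
  have h1 : ∀ q ∈ Metric.closedBall (0 : ℂ) (1 / 2), A 0 (‖q‖ ^ 2) ^ 2 ≠ 0 := by
    intro q hq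
    have h1 : ‖q‖ ≤ 1 / 2 := by simpa using hq
    have h2 := norm_nonneg q
    have := one_le_A0 (s := ‖q‖ ^ 2) (by positivity) (by nlinarith)
    positivity
  rw [continuousOn_pi]
  intro i
  fin_cases i
  · exact continuousOn_const
  · exact continuousOn_const
  · exact ContinuousOn.div (by fun_prop) (h0.pow 2) h1
  · exact ContinuousOn.div ((Complex.continuous_re.const_mul 2 |>.continuousOn)) (h0.pow 2) h1
  · exact ContinuousOn.div ((Complex.continuous_im.const_mul 2).neg.continuousOn) (h0.pow 2) h1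

theorem cf_div (f : ℝ → ℝ) (c : ℝ) (m : ℤ) : R4.cf (fun x => f x / c) m = R4.cf f m / c := by
  unfold R4.cf
  have h1 : (fun x : ℝ => ((f x / c : ℝ) : ℂ) * Complex.exp (-(Complex.I * m * x))) =
      fun x : ℝ => ((f x : ℂ) * Complex.exp (-(Complex.I * m * x))) * (c : ℂ)⁻¹ := by
    funext x
    push_cast
    ring
  rw [h1, intervalIntegral.integral_mul_const]
  ring

theorem exists_q : ∃ κ : ℝ, 0 < κ ∧ ∀ a : ℂ, ‖a‖ ≤ κ → ∃ q : ℂ, ‖q‖ ≤ 1 / 2 ∧ ‖q‖ ≤ 4 * ‖a‖ ∧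
    0 < A 1 (‖q‖ ^ 2) ∧ q * (A 1 (‖q‖ ^ 2) : ℂ) / (A 0 (‖q‖ ^ 2) : ℂ) = a := by
  have hg : ContinuousOn (fun s => A 1 s / A 0 s) (Set.Icc 0 (1 / 4)) :=
    (A_cont 1).div (A_cont 0) fun s hs => by
      have := one_le_A0 hs.1 (by linarith [hs.2])
      positivity
  have hg0 : A 1 0 / A 0 0 = 1 / 2 := by
    rw [A_zero, A_zero, be_zero, be_one]; norm_num
  -- a neighbourhood where the quotient is at least `1/4`
  obtain ⟨ε, hε, hg1⟩ : ∃ ε : ℝ, 0 < ε ∧ ∀ s, 0 ≤ s → s ≤ 1 / 4 → s < ε → 1 / 4 < A 1 s / A 0 s := by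
    have h1 := (hg 0 ⟨le_refl 0, by norm_num⟩)
    have h2 : ∀ᶠ s in 𝓝[Set.Icc 0 (1 / 4)] (0 : ℝ), 1 / 4 < A 1 s / A 0 s := by
      refine h1.eventually (lt_mem_nhds ?_)
      show 1 / 4 < A 1 0 / A 0 0
      rw [hg0]; norm_num
    rw [eventually_nhdsWithin_iff, Metric.eventually_nhds_iff] at h2
    obtain ⟨ε, hε, h3⟩ := h2
    refine ⟨ε, hε, fun s h4 h5 h6 => h3 ?_ ⟨h4, h5⟩⟩
    rw [Real.dist_eq, sub_zero, abs_of_nonneg h4]
    exact h6
  obtain ⟨t0, ht0, ht1, ht2⟩ : ∃ t0 : ℝ, 0 < t0 ∧ t0 ≤ 1 / 2 ∧ t0 ^ 2 < ε := by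
    refine ⟨min (1 / 2) (ε / 2), by positivity, min_le_left _ _, ?_⟩
    have h1 : min (1 / 2) (ε / 2) ≤ 1 / 2 := min_le_left _ _
    have h2 : min (1 / 2) (ε / 2) ≤ ε / 2 := min_le_right _ _
    have h3 : 0 < min (1 / 2) (ε / 2) := by positivity
    nlinarith
  set R : ℝ → ℝ := fun t => t * (A 1 (t ^ 2) / A 0 (t ^ 2)) with hR
  have hRc : ContinuousOn R (Set.Icc 0 t0) := by
    refine continuousOn_id.mul (hg.comp (by fun_prop) fun t ht => ?_)
    exact ⟨by positivity, by nlinarith [ht.1, ht.2]⟩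
  have hge : ∀ t ∈ Set.Icc 0 t0, 1 / 4 < A 1 (t ^ 2) / A 0 (t ^ 2) := fun t ht =>
    hg1 _ (by positivity) (by nlinarith [ht.1, ht.2]) (by nlinarith [ht.1, ht.2])
  refine ⟨R t0, ?_, fun a ha => ?_⟩
  · have := hge t0 ⟨ht0.le, le_refl _⟩
    simp only [hR]
    nlinarith
  · have hR0 : R 0 = 0 := by simp [hR]
    obtain ⟨t, ht, hta⟩ := intermediate_value_Icc ht0.le hRc
      (show ‖a‖ ∈ Set.Icc (R 0) (R t0) from ⟨by rw [hR0]; exact norm_nonneg a, ha⟩)
    have hgt := hge t ht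
    have hA0 : 1 ≤ A 0 (t ^ 2) := one_le_A0 (by positivity) (by nlinarith [ht.1, ht.2])
    by_cases ha0 : a = 0
    · refine ⟨0, by simp, by simp, ?_, ?_⟩
      · have := hge 0 ⟨le_refl _, ht0.le⟩
        simp only [norm_zero]
        rw [zero_pow two_ne_zero] at this ⊢
        rw [A_zero, be_one]
        norm_num
      · rw [ha0]; simp
    · have hna : 0 < ‖a‖ := norm_pos_iff.2 ha0
      have hnq : ‖(t : ℂ) * (a / (‖a‖ : ℂ))‖ = t := by
        rw [norm_mul, norm_div, Complex.norm_real, Complex.norm_real, norm_norm,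
          Real.norm_of_nonneg ht.1, div_self hna.ne', mul_one]
      refine ⟨(t : ℂ) * (a / (‖a‖ : ℂ)), ?_, ?_, ?_, ?_⟩
      · rw [hnq]; linarith [ht.2]
      · rw [hnq, ← hta]
        simp only [hR]
        nlinarith [ht.1]
      · rw [hnq]
        by_contra h3
        have : A 1 (t ^ 2) / A 0 (t ^ 2) ≤ 0 := div_nonpos_of_nonpos_of_nonneg (not_lt.1 h3)
          (by linarith)
        linarith
      · rw [hnq]
        have h3 : ((‖a‖ : ℝ) : ℂ) ≠ 0 := by exact_mod_cast hna.ne'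
        have h4 : (t : ℂ) * ((A 1 (t ^ 2) : ℂ) / (A 0 (t ^ 2) : ℂ)) = (‖a‖ : ℂ) := by
          rw [← hta]
          simp only [hR]
          push_cast
          ring
        calc (t : ℂ) * (a / (‖a‖ : ℂ)) * (A 1 (t ^ 2) : ℂ) / (A 0 (t ^ 2) : ℂ) =
            ((t : ℂ) * ((A 1 (t ^ 2) : ℂ) / (A 0 (t ^ 2) : ℂ))) * (a / (‖a‖ : ℂ)) := by ring
          _ = a := by rw [h4]; field_simp

/-- the coefficients of `(1 + b X ^ 2) ^ (1/2)` -/
theorem coeff_root {c : ℕ → ℂ} {b : ℂ} (h0 : c 0 = 1)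
    (h : (PowerSeries.mk c) ^ 2 = 1 + PowerSeries.C b * PowerSeries.X ^ 2) (n : ℕ) :
    c n = if 2 ∣ n then b ^ (n / 2) * (be (n / 2) : ℂ) else 0 := by
  set g : PowerSeries ℂ := PowerSeries.expand 2 two_ne_zero
    (PowerSeries.rescale b (PowerSeries.map Complex.ofRealHom Bs)) with hg
  have hg2 : g ^ 2 = 1 + PowerSeries.C b * PowerSeries.X ^ 2 := by
    rw [hg, ← map_pow, ← map_pow, ← map_pow, Bs_sq]
    simp only [map_add, map_one, PowerSeries.map_X, PowerSeries.rescale_X, map_mul,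
      PowerSeries.expand_X, PowerSeries.expand_C]
  have hgc : ∀ n, PowerSeries.coeff n g = if 2 ∣ n then b ^ (n / 2) * (be (n / 2) : ℂ) else 0 := by
    intro n
    rw [hg, PowerSeries.coeff_expand, PowerSeries.coeff_rescale, PowerSeries.coeff_map]
    rfl
  have h1 : (PowerSeries.mk c - g) * (PowerSeries.mk c + g) = 0 := by
    have : (PowerSeries.mk c - g) * (PowerSeries.mk c + g) = (PowerSeries.mk c) ^ 2 - g ^ 2 := by
      ring
    rw [this, h, hg2, sub_self]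
  have h2 : PowerSeries.mk c + g ≠ 0 := by
    intro h3
    have h4 := congrArg (PowerSeries.coeff 0) h3
    rw [map_add, PowerSeries.coeff_mk, h0, hgc 0, map_zero] at h4
    simp only [dvd_zero, if_true, Nat.zero_div, pow_zero, be_zero] at h4
    norm_num at h4
  have h3 := (mul_eq_zero.1 h1).resolve_right h2
  rw [sub_eq_zero] at h3
  rw [← hgc n, ← h3, PowerSeries.coeff_mk]

theorem elln : Disc.ELLN := by
  obtain ⟨κ, hκ, hex⟩ := exists_q
  choose! qf hqf using hex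
  obtain ⟨η, β, M, hη, hβ, hM, hK⟩ := stELLC (vv '' Metric.closedBall 0 (1 / 2))
    (by
      rintro _ ⟨q, hq, rfl⟩
      exact vv_mem (by simpa using hq))
    ((isCompact_closedBall 0 (1 / 2)).image_of_continuousOn vv_cont)
  -- the modes
  have hcf : ∀ q : ℂ, ‖q‖ ≤ 1 / 2 → ∀ m : ℤ,
      R4.cf (EF (vv q)) m = R4.cf (Nf q) m / (A 0 (‖q‖ ^ 2) : ℂ) := by
    intro q hq m
    rw [EF_vv hq, cf_div]
  have hA0 : ∀ q : ℂ, ‖q‖ ≤ 1 / 2 → 1 ≤ A 0 (‖q‖ ^ 2) := fun q hq =>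
    one_le_A0 (by positivity) (by nlinarith [norm_nonneg q])
  have hA0' : ∀ q : ℂ, ‖q‖ ≤ 1 / 2 → (A 0 (‖q‖ ^ 2) : ℂ) ≠ 0 := fun q hq => by
    have := hA0 q hq
    exact_mod_cast (by positivity : A 0 (‖q‖ ^ 2) ≠ 0)
  refine ⟨η, β, M, κ, 3, fun a => EF (vv (qf a)), hη, hβ, hM, hκ, by norm_num, fun a ha => ?_, ?_⟩
  · obtain ⟨h1, h2, h3, h4⟩ := hqf a ha
    have hmem : vv (qf a) ∈ vv '' Metric.closedBall 0 (1 / 2) := ⟨qf a, by simpa using h1, rfl⟩
    have hEP := vv_mem h1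
    have hlt : ‖qf a‖ < 1 := by linarith
    refine ⟨⟨_, hEP, rfl⟩, (hK _ hmem).1, rsn_of_collar (smoothTable_EF hEP) hη (hK _ hmem).2,
      ?_, ?_, ?_, fun k hk => ?_⟩
    · have := cf_even hlt 0
      simp only [mul_zero, Nat.cast_zero, pow_zero, one_mul] at this
      rw [hcf _ h1, this, div_self (hA0' _ h1)]
    · rw [hcf _ h1, cf_odd hlt 1 (by norm_num), zero_div]
    · have := cf_even hlt 1
      simp only [mul_one, pow_one, Nat.cast_ofNat] at this
      rw [hcf _ h1, this, h4]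
    · rw [hcf _ h1]
      rcases Nat.even_or_odd' k with ⟨l, rfl | rfl⟩
      · rw [cf_even hlt l, norm_div, norm_mul, norm_pow, Complex.norm_real, Complex.norm_real,
          Real.norm_eq_abs, Real.norm_eq_abs]
        have h5 := hA0 _ h1
        have h6 := abs_A_le l (s := ‖qf a‖ ^ 2) (by positivity) (by nlinarith [norm_nonneg (qf a)])
        have h7 : |A 0 (‖qf a‖ ^ 2)| = A 0 (‖qf a‖ ^ 2) := abs_of_pos (by linarith)
        rw [h7, div_le_iff₀ (by linarith)]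
        have h8 : (3 * √‖a‖) ^ (2 * l) = (9 * ‖a‖) ^ l := by
          rw [pow_mul, mul_pow, Real.sq_sqrt (norm_nonneg a)]
          norm_num
        rw [h8]
        have h9 : ‖qf a‖ ^ l ≤ (4 * ‖a‖) ^ l := pow_le_pow_left₀ (norm_nonneg _) h2 l
        have h10 : 2 * (4 * ‖a‖) ^ l ≤ (9 * ‖a‖) ^ l := by
          have hl : l ≠ 0 := by omega
          have h11 : (2 : ℝ) ≤ 2 ^ l := by
            calc (2 : ℝ) = 2 ^ 1 := by norm_num
              _ ≤ 2 ^ l := pow_le_pow_right₀ (by norm_num) (by omega)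
          have h12 : 0 ≤ (4 * ‖a‖) ^ l := by positivity
          calc 2 * (4 * ‖a‖) ^ l ≤ 2 ^ l * (4 * ‖a‖) ^ l := by gcongr
            _ = (8 * ‖a‖) ^ l := by rw [← mul_pow]; ring
            _ ≤ (9 * ‖a‖) ^ l := by
              have := norm_nonneg a
              exact pow_le_pow_left₀ (by positivity) (by linarith) l
        have h13 : 0 ≤ (9 * ‖a‖) ^ l := by positivity
        calc ‖qf a‖ ^ l * |A l (‖qf a‖ ^ 2)| ≤ (4 * ‖a‖) ^ l * 2 := by gcongr
          _ ≤ (9 * ‖a‖) ^ l * 1 := by linarith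
          _ ≤ (9 * ‖a‖) ^ l * A 0 (‖qf a‖ ^ 2) := by gcongr
      · rw [cf_odd hlt _ (by push_cast; omega), zero_div, norm_zero]
        positivity
  · intro a δ c b hδ hδ0 hlim hc0 hc
    have hcc := coeff_root hc0 hc
    have hc2 : c 2 = b * (1 / 2) := by
      rw [hcc 2, if_pos (dvd_refl 2)]
      norm_num [be_one]
    have hδC : Tendsto (fun m => (δ m : ℂ)) atTop (𝓝 0) := by
      have := (Complex.continuous_ofReal.tendsto 0).comp hδ0
      rw [Complex.ofReal_zero] at this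
      exact this
    have hδne : ∀ m, (δ m : ℂ) ≠ 0 := fun m => by exact_mod_cast (hδ m).ne'
    have ha0 : Tendsto a atTop (𝓝 0) := by
      have h1 := hlim.mul (hδC.pow 2)
      rw [zero_pow two_ne_zero, mul_zero] at h1
      refine h1.congr fun m => ?_
      have := hδne m
      field_simp
    have hna : Tendsto (fun m => ‖a m‖) atTop (𝓝 0) := by simpa using ha0.norm
    have hev : ∀ᶠ m in atTop, ‖a m‖ ≤ κ := hna.eventually (Iic_mem_nhds hκ)
    have hq0 : Tendsto (fun m => ‖qf (a m)‖ ^ 2) atTop (𝓝[Set.Icc 0 (1 / 4)] 0) := by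
      rw [tendsto_nhdsWithin_iff]
      constructor
      · have h1 : Tendsto (fun m => ‖qf (a m)‖) atTop (𝓝 0) := by
          refine squeeze_zero' (Eventually.of_forall fun m => norm_nonneg _)
            (hev.mono fun m hm => (hqf _ hm).2.1) ?_
          simpa using hna.const_mul 4
        simpa using h1.pow 2
      · filter_upwards [hev] with m hm
        have h1 := (hqf _ hm).1
        exact ⟨by positivity, by nlinarith [norm_nonneg (qf (a m))]⟩
    have hAl : ∀ l, Tendsto (fun m => (A l (‖qf (a m)‖ ^ 2) : ℂ)) atTop (𝓝 (be l : ℂ)) := by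
      intro l
      have h1 := (A_cont l 0 ⟨le_refl _, by norm_num⟩).tendsto.comp hq0
      rw [A_zero] at h1
      exact (Complex.continuous_ofReal.tendsto _).comp h1
    have hqd : Tendsto (fun m => qf (a m) / (δ m : ℂ) ^ 2) atTop (𝓝 b) := by
      have h1 := hlim.mul ((hAl 0).div (hAl 1) (by rw [be_one]; norm_num))
      have h2 : c 2 * ((be 0 : ℂ) / (be 1 : ℂ)) = b := by
        rw [hc2, be_zero, be_one]
        push_cast
        ring
      rw [h2] at h1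
      refine h1.congr' ?_
      filter_upwards [hev] with m hm
      obtain ⟨h3, h4, h5, h6⟩ := hqf _ hm
      have h7 : (A 1 (‖qf (a m)‖ ^ 2) : ℂ) ≠ 0 := by exact_mod_cast h5.ne'
      have h8 := hA0' _ h3
      have h9 := hδne m
      simp only [Pi.div_apply]
      conv_lhs => rw [← h6]
      rw [h6]
      rw [← sub_eq_zero]
      have h10 : a m = qf (a m) * (A 1 (‖qf (a m)‖ ^ 2) : ℂ) / (A 0 (‖qf (a m)‖ ^ 2) : ℂ) := h6.symm
      have h11 : a m * (A 0 (‖qf (a m)‖ ^ 2) : ℂ) = qf (a m) * (A 1 (‖qf (a m)‖ ^ 2) : ℂ) := by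
        rw [eq_div_iff h8] at h10
        exact h10
      field_simp
      linear_combination h11
    intro k
    rcases Nat.even_or_odd' k with ⟨l, rfl | rfl⟩
    · have h1 := (hqd.pow l).mul ((hAl l).div (hAl 0) (by rw [be_zero]; norm_num))
      have h2 : c (2 * l) = b ^ l * ((be l : ℂ) / (be 0 : ℂ)) := by
        rw [hcc, if_pos (dvd_mul_right 2 l), Nat.mul_div_cancel_left l two_pos, be_zero]
        simp
      rw [h2]
      refine h1.congr' ?_
      filter_upwards [hev] with m hm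
      obtain ⟨h3, h4, h5, h6⟩ := hqf _ hm
      have h8 := hA0' _ h3
      have h9 := hδne m
      rw [hcf _ h3, cf_even (by linarith) l, pow_mul, div_pow]
      simp only [Pi.div_apply]
      field_simp
    · rw [hcc, if_neg (by omega)]
      refine tendsto_const_nhds.congr' ?_
      filter_upwards [hev] with m hm
      obtain ⟨h3, h4, h5, h6⟩ := hqf _ hm
      rw [hcf _ h3, cf_odd (by linarith) _ (by push_cast; omega)]
      simp

end Vale.Agent.P097.H104.ELL
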