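import Vale.Agent.P097.H104.ELL.Beta
import Vale.Agent.P097.Bdl.B1

/-! # P097 / Disc [F3], part 2 (helper104): the Fourier coefficients of `|1 + q e^{2ix}|`. -/

open Finset MeasureTheory

namespace Vale.Agent.P097.H104.ELL

open Vale.Agent.P097.Reg

theorem hs_congr {ι : Type*} {f g : ι → ℂ} {a : ℂ} (h : ∀ i, f i = g i) (hg : HasSum g a) :
    HasSum f a := by
  rwa [show f = g from funext h]

theorem int_exp (n : ℤ) : ∫ x in (0:ℝ)..(2 * Real.pi), Complex.exp (Complex.I * n * x) =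
    if n = 0 then ((2 * Real.pi : ℝ) : ℂ) else 0 := by
  split_ifs with h
  · subst h
    simp
  · have hn : Complex.I * n ≠ 0 := mul_ne_zero Complex.I_ne_zero (Int.cast_ne_zero.2 h)
    rw [integral_exp_mul_complex hn]
    have h1 : Complex.exp (Complex.I * n * ((2 * Real.pi : ℝ) : ℂ)) = 1 := by
      rw [show Complex.I * n * ((2 * Real.pi : ℝ) : ℂ) = n * (2 * Real.pi * Complex.I) by
        push_cast; ring]
      exact Complex.exp_int_mul_two_pi_mul_I n
    rw [h1]
    simp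

/-- the function `|1 + q e^{2ix}|` -/
noncomputable def Nf (q : ℂ) (x : ℝ) : ℝ := ‖1 + q * Complex.exp (Complex.I * (2 * x))‖

theorem cf_Nf {q : ℂ} (hq : ‖q‖ < 1) (m : ℤ) :
    HasSum (fun p : ℕ × ℕ => (be p.1 : ℂ) * (be p.2 : ℂ) * (q ^ p.1 * (starRingEnd ℂ) q ^ p.2) *
      (if 2 * ((p.1 : ℤ) - p.2) = m then 1 else 0)) (R4.cf (Nf q) m) := by
  have hpi := Real.pi_pos
  have h2pi : ((2 * Real.pi : ℝ) : ℂ) ≠ 0 := by exact_mod_cast (by positivity : (2 * Real.pi) ≠ 0)
  have key : HasSum (fun p : ℕ × ℕ => ∫ x in (0:ℝ)..(2 * Real.pi),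
      ((be p.1 : ℂ) * (be p.2 : ℂ) * (q ^ p.1 * (starRingEnd ℂ) q ^ p.2)) *
        Complex.exp (Complex.I * ((2 * ((p.1 : ℤ) - p.2) - m : ℤ) : ℂ) * x))
      (∫ x in (0:ℝ)..(2 * Real.pi), (Nf q x : ℂ) * Complex.exp (-(Complex.I * m * x))) := by
    refine intervalIntegral.hasSum_integral_of_dominated_convergence
      (fun (p : ℕ × ℕ) _ => ‖q‖ ^ p.1 * ‖q‖ ^ p.2) (fun p => ?_) (fun p => ?_) ?_ ?_ ?_
    · exact (by fun_prop : Continuous _).aestronglyMeasurable
    · refine ae_of_all _ fun x _ => ?_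
      rw [norm_mul, norm_mul, norm_mul, norm_mul, norm_pow, norm_pow, RCLike.norm_conj,
        Complex.norm_real, Complex.norm_real, Real.norm_eq_abs, Real.norm_eq_abs]
      have h1 : ‖Complex.exp (Complex.I * ((2 * ((p.1 : ℤ) - p.2) - m : ℤ) : ℂ) * x)‖ = 1 := by
        rw [Complex.norm_exp]
        simp
      rw [h1, mul_one]
      have h2 : |be p.1| * |be p.2| ≤ 1 := mul_le_one₀ (be_le _) (abs_nonneg _) (be_le _)
      exact mul_le_of_le_one_left (by positivity) h2
    · refine ae_of_all _ fun x _ => ?_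
      have h1 := summable_geometric_of_lt_one (norm_nonneg q) hq
      exact h1.mul_of_nonneg h1 (fun _ => by positivity) (fun _ => by positivity)
    · exact intervalIntegrable_const
    · refine ae_of_all _ fun x _ => ?_
      have hw : ‖q * Complex.exp (Complex.I * (2 * x))‖ < 1 := by
        rw [norm_mul, Complex.norm_exp]
        simpa using hq
      have h1 := (hasSum_norm hw).mul_right (Complex.exp (-(Complex.I * m * x)))
      have hc : (starRingEnd ℂ) (q * Complex.exp (Complex.I * (2 * x))) =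
          (starRingEnd ℂ) q * Complex.exp (-(Complex.I * (2 * x))) := by
        rw [map_mul, ← Complex.exp_conj]
        congr 2
        rw [map_mul, map_mul, Complex.conj_I, Complex.conj_ofReal, map_ofNat]
        ring
      rw [hc] at h1
      refine hs_congr (fun p => ?_) h1
      rw [mul_pow, mul_pow, ← Complex.exp_nat_mul, ← Complex.exp_nat_mul]
      have h3 : Complex.exp (Complex.I * ((2 * ((p.1 : ℤ) - p.2) - m : ℤ) : ℂ) * x) =
          Complex.exp ((p.1 : ℂ) * (Complex.I * (2 * x))) *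
            Complex.exp ((p.2 : ℂ) * -(Complex.I * (2 * x))) *
            Complex.exp (-(Complex.I * m * x)) := by
        rw [← Complex.exp_add, ← Complex.exp_add]
        congr 1
        push_cast
        ring
      rw [h3]
      ring
  have h1 := key.mul_left (((2 * Real.pi : ℝ) : ℂ)⁻¹)
  rw [← R4.cf] at h1
  refine hs_congr (fun p => ?_) h1
  rw [intervalIntegral.integral_const_mul, int_exp]
  by_cases h : 2 * ((p.1 : ℤ) - p.2) = m
  · rw [if_pos h, if_pos (sub_eq_zero.2 h)]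
    field_simp
  · rw [if_neg h, if_neg (sub_ne_zero.2 h)]
    ring

/-- `A_k(s) = ∑_j β_{k+j} β_j s^j` -/
noncomputable def A (k : ℕ) (s : ℝ) : ℝ := ∑' j, be (k + j) * be j * s ^ j

theorem summable_A (k : ℕ) {s : ℝ} (h0 : 0 ≤ s) (h1 : s < 1) :
    Summable fun j => be (k + j) * be j * s ^ j := by
  refine Summable.of_norm_bounded (summable_geometric_of_lt_one h0 h1) fun j => ?_
  rw [norm_mul, norm_mul, norm_pow, Real.norm_eq_abs, Real.norm_eq_abs, Real.norm_eq_abs,
    abs_of_nonneg h0]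
  have h2 : |be (k + j)| * |be j| ≤ 1 := mul_le_one₀ (be_le _) (abs_nonneg _) (be_le _)
  exact mul_le_of_le_one_left (by positivity) h2

theorem cf_even {q : ℂ} (hq : ‖q‖ < 1) (k : ℕ) :
    R4.cf (Nf q) (2 * k : ℕ) = q ^ k * (A k (‖q‖ ^ 2) : ℂ) := by
  have h := cf_Nf hq ((2 * k : ℕ) : ℤ)
  have hinj : Function.Injective (fun j : ℕ => (k + j, j)) := fun a b hab => (Prod.ext_iff.1 hab).2
  rw [← hinj.hasSum_iff] at h
  · have h2 : HasSum (fun j : ℕ => ((be (k + j) * be j * (‖q‖ ^ 2) ^ j : ℝ) : ℂ))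
        (A k (‖q‖ ^ 2) : ℂ) := by
      rw [Complex.hasSum_ofReal]
      exact (summable_A k (by positivity) (by
        have := norm_nonneg q
        nlinarith)).hasSum
    refine h.unique ?_
    refine hs_congr (fun j => ?_) (h2.mul_left (q ^ k))
    show (be (k + j) : ℂ) * (be j : ℂ) * (q ^ (k + j) * (starRingEnd ℂ) q ^ j) *
      (if 2 * (((k + j : ℕ) : ℤ) - j) = ((2 * k : ℕ) : ℤ) then 1 else 0) = _
    rw [if_pos (by push_cast; ring), pow_add]
    have h3 : q ^ j * (starRingEnd ℂ) q ^ j = ((‖q‖ ^ 2 : ℝ) : ℂ) ^ j := by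
      rw [← mul_pow, Complex.mul_conj, Complex.normSq_eq_norm_sq]
    push_cast
    push_cast at h3
    rw [← h3]
    ring
  · rintro ⟨a, b⟩ hab
    rw [if_neg, mul_zero]
    intro h3
    apply hab
    refine ⟨b, ?_⟩
    push_cast at h3
    have : a = k + b := by omega
    rw [this]

theorem cf_odd {q : ℂ} (hq : ‖q‖ < 1) (m : ℤ) (hm : ¬ (2 : ℤ) ∣ m) : R4.cf (Nf q) m = 0 := by
  have h := cf_Nf hq m
  have h2 : (fun p : ℕ × ℕ => (be p.1 : ℂ) * (be p.2 : ℂ) *
      (q ^ p.1 * (starRingEnd ℂ) q ^ p.2) *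
      (if 2 * ((p.1 : ℤ) - p.2) = m then 1 else 0)) = fun _ => 0 := by
    funext p
    rw [if_neg, mul_zero]
    intro h3
    exact hm ⟨_, h3.symm⟩
  rw [h2] at h
  exact h.unique hasSum_zero

end Vale.Agent.P097.H104.ELL
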